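import Vale.Agent.P211.Cert.Pair.Data.HessAxisY.Base

/-!
P211, data: the root `axisY` of the Hessian weight, generated from the exact search.
-/

namespace Vale.Agent.P211.Cert.Pair.HessAxisY

open Vale.Agent.P098.Check6 (Face St ofChunks reach)
open Vale.Agent.P098.Cert6.Kron (RootPar)

/-- A subtree. -/
def tree0 : Check.Tree (Option ℕ) :=
  .leaf none

theorem chunk0 : Check.GoodSign cfg (reach cfg base []) :=
  Check.checkSign_sound tree0 (by decide +kernel)

end Vale.Agent.P211.Cert.Pair.HessAxisY
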